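import Mathlib

/-!
Bin packing: definitions of the instance, its optimum `OPT`, the Gilmore-Gomory
configuration LP value `LP`, and a certificate checker proving lower bounds on `OPT - LP`.
-/

open scoped BigOperators

namespace Vale.Agent.P302

/-- A bin packing instance: the distinct item sizes `size i` (rationals in `(0,1]`, pairwise
different) with their positive multiplicities `mult i`. -/
structure Inst where
  m : ℕ
  size : Fin m → ℚ
  mult : Fin m → ℕ
  inj : Function.Injective size
  pos : ∀ i, 0 < size i
  le_one : ∀ i, size i ≤ 1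
  mult_pos : ∀ i, 0 < mult i

/-- A configuration: a vector of nonnegative integers whose total size is at most one
(a size may occur more often than its multiplicity). -/
def Inst.IsConfig (I : Inst) (c : Fin I.m → ℕ) : Prop :=
  ∑ i, (c i : ℚ) * I.size i ≤ 1

/-- The items of `I` can be partitioned into `k` bins of total size at most one:
`B j i` is the number of items of size `size i` in bin `j`. -/
def Inst.PacksInto (I : Inst) (k : ℕ) : Prop :=
  ∃ B : Fin k → Fin I.m → ℕ, (∀ j, I.IsConfig (B j)) ∧ ∀ i, ∑ j, B j i = I.mult i

/-- `OPT(I)`: the least number of bins into which the items can be partitioned. -/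
noncomputable def Inst.OPT (I : Inst) : ℕ := sInf {k | I.PacksInto k}

/-- A feasible solution of the configuration LP: finitely many configurations with nonnegative
real weights covering every size at least `mult` times. -/
def Inst.LPFeasible (I : Inst) (z : (Fin I.m → ℕ) →₀ ℝ) : Prop :=
  (∀ c, 0 ≤ z c) ∧ (∀ c ∈ z.support, I.IsConfig c) ∧
    ∀ i, (I.mult i : ℝ) ≤ z.sum (fun c w => (c i : ℝ) * w)

/-- `LP(I)`: the value of the Gilmore-Gomory configuration LP. -/
noncomputable def Inst.LP (I : Inst) : ℝ :=
  sInf {v | ∃ z, I.LPFeasible z ∧ z.sum (fun _ w => w) = v}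

/-! ### Basic facts -/

lemma Inst.LP_le (I : Inst) (z : (Fin I.m → ℕ) →₀ ℝ) (hz : I.LPFeasible z) :
    I.LP ≤ z.sum (fun _ w => w) := by
  apply csInf_le
  · refine ⟨0, ?_⟩
    rintro v ⟨z', hz', rfl⟩
    exact Finset.sum_nonneg (fun c _ => hz'.1 c)
  · exact ⟨z, hz, rfl⟩

/-- Every instance can be packed (each item alone in a bin). -/
lemma Inst.packs_some (I : Inst) : I.PacksInto (∑ i, I.mult i) := by
  classical
  let e := finSigmaFinEquiv (m := I.m) (n := I.mult)
  refine ⟨fun j i => if (e.symm j).1 = i then 1 else 0, ?_, ?_⟩
  · intro j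
    unfold Inst.IsConfig
    have : ∑ i, (((if (e.symm j).1 = i then 1 else 0 : ℕ) : ℚ)) * I.size i = I.size (e.symm j).1 := by
      rw [Finset.sum_eq_single (e.symm j).1]
      · simp
      · intro b _ hb
        have : (e.symm j).1 ≠ b := fun h => hb h.symm
        simp [this]
      · simp
    rw [this]
    exact I.le_one _
  · intro i
    have : ∑ j, (if (e.symm j).1 = i then 1 else 0 : ℕ)
        = ∑ p : (Σ i : Fin I.m, Fin (I.mult i)), (if p.1 = i then 1 else 0 : ℕ) := by
      exact (Equiv.sum_comp e.symm (fun p : (Σ i : Fin I.m, Fin (I.mult i)) => if p.1 = i then 1 else 0 : _ → ℕ))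
    rw [this, Fintype.sum_sigma]
    rw [Finset.sum_eq_single i]
    · simp
    · intro b _ hb
      simp [hb]
    · simp

lemma Inst.le_OPT (I : Inst) (k : ℕ) (h : ∀ k' ≤ k, ¬ I.PacksInto k') : k + 1 ≤ I.OPT := by
  have hne : {k | I.PacksInto k}.Nonempty := ⟨_, I.packs_some⟩
  have hm : I.PacksInto I.OPT := Nat.sInf_mem hne
  by_contra hlt
  exact h I.OPT (by omega) hm

/-! ### Placement search -/

/-- Placing the item sizes `xs` one after the other into bins with current loads `m`. -/
def PlM (L : ℕ) : List ℕ → Multiset ℕ → Prop
  | [], _ => True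
  | x :: xs, m => ∃ l ∈ m, l + x ≤ L ∧ PlM L xs ((m.erase l) + {l + x})

lemma pl_of_matrix {M : ℕ} (s : Fin M → ℕ) (L : ℕ) :
    ∀ (idx : List (Fin M)) {k : ℕ} (loads : Fin k → ℕ) (B : Fin k → Fin M → ℕ),
      (∀ j, loads j + ∑ i, B j i * s i ≤ L) →
      (∀ i, ∑ j, B j i = idx.count i) →
      PlM L (idx.map s) (Multiset.map loads Finset.univ.val) := by
  intro idx
  induction idx with
  | nil => intros; trivial
  | cons i rest ih =>
    intro k loads B hload hcount
    classical
    have h1 : 0 < ∑ j, B j i := by rw [hcount i]; simp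
    obtain ⟨j, _, hj⟩ := Finset.exists_lt_of_sum_lt (s := Finset.univ) (f := fun _ => 0)
      (g := fun j => B j i) (by simpa using h1)
    have hj' : 1 ≤ B j i := hj
    have hsum : B j i * s i + ∑ i' ∈ Finset.univ.erase i, B j i' * s i' = ∑ i', B j i' * s i' :=
      Finset.add_sum_erase Finset.univ (fun i' => B j i' * s i') (Finset.mem_univ i)
    have hsi : s i ≤ B j i * s i := Nat.le_mul_of_pos_left _ hj'
    have hfit : loads j + s i ≤ L := by
      have := hload j
      omega
    refine ⟨loads j, ?_, hfit, ?_⟩
    · exact Multiset.mem_map.mpr ⟨j, Finset.mem_univ j, rfl⟩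
    · let loads' : Fin k → ℕ := Function.update loads j (loads j + s i)
      let B' : Fin k → Fin M → ℕ := Function.update B j (Function.update (B j) i (B j i - 1))
      have hU : (Finset.univ : Finset (Fin k)).val = j ::ₘ (Finset.univ.erase j).val := by
        rw [Finset.erase_val, Multiset.cons_erase (Finset.mem_univ j)]
      have hm : (Multiset.map loads Finset.univ.val).erase (loads j) + {loads j + s i}
          = Multiset.map loads' Finset.univ.val := by
        rw [hU, Multiset.map_cons, Multiset.erase_cons_head, Multiset.map_cons]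
        have h2 : Multiset.map loads' (Finset.univ.erase j).val
            = Multiset.map loads (Finset.univ.erase j).val := by
          apply Multiset.map_congr rfl
          intro x hx
          have hx' : x ≠ j := (Finset.mem_erase.mp (Finset.mem_def.mpr hx)).1
          simp [loads', Function.update_of_ne hx']
        rw [h2]
        have h20 : loads' j = loads j + s i := by simp [loads']
        rw [h20, Multiset.add_comm, Multiset.singleton_add]
      rw [hm]
      refine ih loads' B' ?_ ?_
      · intro j'
        by_cases hjj : j' = j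
        · subst hjj
          have h3 : (Function.update (B j') i (B j' i - 1)) i * s i
              + ∑ i' ∈ Finset.univ.erase i, (Function.update (B j') i (B j' i - 1)) i' * s i'
              = ∑ i', (Function.update (B j') i (B j' i - 1)) i' * s i' :=
            Finset.add_sum_erase Finset.univ
              (fun i' => (Function.update (B j') i (B j' i - 1)) i' * s i') (Finset.mem_univ i)
          have h4 : ∑ i' ∈ Finset.univ.erase i, (Function.update (B j') i (B j' i - 1)) i' * s i'
              = ∑ i' ∈ Finset.univ.erase i, B j' i' * s i' := by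
            apply Finset.sum_congr rfl
            intro x hx
            have hx' : x ≠ i := (Finset.mem_erase.mp hx).1
            simp [Function.update_of_ne hx']
          have h5 : (Function.update (B j') i (B j' i - 1)) i = B j' i - 1 := by simp
          have h6 : (B j' i - 1) * s i + s i = B j' i * s i := by
            obtain ⟨n, hn⟩ : ∃ n, B j' i = n + 1 := ⟨B j' i - 1, by omega⟩
            rw [hn]; simp; ring
          have h7 := hload j'
          simp only [loads', B', Function.update_self]
          rw [← h3, h4, h5]
          omega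
        · simp only [loads', B', Function.update_of_ne hjj]
          exact hload j'
      · intro i'
        have h8 : B' j i' + ∑ x ∈ Finset.univ.erase j, B' x i' = ∑ x, B' x i' :=
          Finset.add_sum_erase Finset.univ (fun x => B' x i') (Finset.mem_univ j)
        have h9 : ∑ x ∈ Finset.univ.erase j, B' x i' = ∑ x ∈ Finset.univ.erase j, B x i' := by
          apply Finset.sum_congr rfl
          intro x hx
          have hx' : x ≠ j := (Finset.mem_erase.mp hx).1
          simp [B', Function.update_of_ne hx']
        have h10 : B j i' + ∑ x ∈ Finset.univ.erase j, B x i' = ∑ x, B x i' :=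
          Finset.add_sum_erase Finset.univ (fun x => B x i') (Finset.mem_univ j)
        have h11 := hcount i'
        by_cases hii : i' = i
        · subst hii
          have h12 : B' j i' = B j i' - 1 := by simp [B']
          rw [List.count_cons_self] at h11
          omega
        · have h12 : B' j i' = B j i' := by simp [B', Function.update_of_ne hii]
          rw [List.count_cons_of_ne (Ne.symm hii)] at h11
          omega

/-- Total free space in bins whose hole can still receive an item of size at least `mn`. -/
def capOf (L mn : ℕ) : List ℕ → ℕ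
  | [] => 0
  | l :: t => (if mn ≤ L - l then L - l else 0) + capOf L mn t

lemma capOf_eq (L mn : ℕ) (ls : List ℕ) :
    capOf L mn ls = ((ls : Multiset ℕ).map (fun l => if mn ≤ L - l then L - l else 0)).sum := by
  induction ls with
  | nil => rfl
  | cons a t ih =>
    simp only [capOf, ih]
    simp

lemma plm_cap (L mn : ℕ) : ∀ (xs : List ℕ) (m : Multiset ℕ), (∀ x ∈ xs, mn ≤ x) → PlM L xs m →
    xs.sum ≤ (m.map (fun l => if mn ≤ L - l then L - l else 0)).sum := by
  intro xs
  induction xs with
  | nil => intros; simp
  | cons x xs ih =>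
    intro m hx h
    obtain ⟨l, hl, hfit, hrest⟩ := h
    have h1 := ih ((m.erase l) + {l + x}) (fun y hy => hx y (List.mem_cons_of_mem _ hy)) hrest
    have h2 : mn ≤ x := hx x (List.mem_cons_self ..)
    have hm : m = l ::ₘ m.erase l := (Multiset.cons_erase hl).symm
    have h3 : (m.map (fun l => if mn ≤ L - l then L - l else 0)).sum
        = (L - l) + ((m.erase l).map (fun l => if mn ≤ L - l then L - l else 0)).sum := by
      conv_lhs => rw [hm]
      rw [Multiset.map_cons, Multiset.sum_cons]
      have : mn ≤ L - l := by omega
      simp [this]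
    rw [Multiset.map_add, Multiset.sum_add] at h1
    have h4 : (Multiset.map (fun l => if mn ≤ L - l then L - l else 0) ({l + x} : Multiset ℕ)).sum
        ≤ L - l - x := by
      simp only [Multiset.map_singleton, Multiset.sum_singleton]
      split_ifs with h5
      · omega
      · omega
    rw [h3, List.sum_cons]
    omega

/-- Insertion keeping a sorted list sorted. -/
def ins (a : ℕ) : List ℕ → List ℕ
  | [] => [a]
  | b :: t => if a ≤ b then a :: b :: t else b :: ins a t

lemma coe_ins (a : ℕ) (t : List ℕ) : ((ins a t : List ℕ) : Multiset ℕ) = a ::ₘ (t : Multiset ℕ) := by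
  induction t with
  | nil => rfl
  | cons b t ih =>
    simp only [ins]
    split_ifs
    · rfl
    · rw [← Multiset.cons_coe, ih, Multiset.cons_swap]; rfl

/-- Try all loads, skipping a load equal to its predecessor. -/
def tryLoads (f : ℕ → Bool) : ℕ → List ℕ → Bool
  | _, [] => false
  | p, b :: t => (if b = p then false else f b) || tryLoads f b t

lemma tryLoads_true (f : ℕ → Bool) : ∀ (ls : List ℕ) (p : ℕ), f p = false →
    (∃ l ∈ ls, f l = true) → tryLoads f p ls = true := by
  intro ls
  induction ls with
  | nil =>
    rintro p _ ⟨l, hl, _⟩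
    simp at hl
  | cons b t ih =>
    rintro p hp ⟨l, hl, hfl⟩
    simp only [tryLoads]
    by_cases hb : f b = true
    · by_cases hbp : b = p
      · subst hbp; rw [hp] at hb; exact absurd hb (by simp)
      · simp [hbp, hb]
    · have hb' : f b = false := by simpa using hb
      have : tryLoads f b t = true := by
        apply ih b hb'
        rcases List.mem_cons.mp hl with h | h
        · subst h; exact absurd hfl hb
        · exact ⟨l, h, hfl⟩
      simp [this]

/-- Exhaustive search for a placement of the items `xs` (of total size `tot`) into bins with the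
given loads. -/
def search (L mn : ℕ) : List ℕ → ℕ → List ℕ → Bool
  | [], _, _ => true
  | x :: xs, tot, ls =>
    if tot ≤ capOf L mn ls then
      tryLoads (fun l => if l + x ≤ L then search L mn xs (tot - x) (ins (l + x) (ls.erase l)) else false)
        (L + 1) ls
    else false

lemma search_sound (L mn : ℕ) : ∀ (xs : List ℕ) (tot : ℕ) (ls : List ℕ), (∀ x ∈ xs, mn ≤ x) →
    tot = xs.sum → PlM L xs (ls : Multiset ℕ) → search L mn xs tot ls = true := by
  intro xs
  induction xs with
  | nil => intros; rfl
  | cons x xs ih =>
    intro tot ls hx htot h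
    have hcap : tot ≤ capOf L mn ls := by
      rw [capOf_eq, htot]
      exact plm_cap L mn (x :: xs) _ hx h
    simp only [search, if_pos hcap]
    apply tryLoads_true
    · have : ¬ (L + 1 + x ≤ L) := by omega
      simp [this]
    · obtain ⟨l, hl, hfit, hrest⟩ := h
      refine ⟨l, Multiset.mem_coe.mp hl, ?_⟩
      simp only [if_pos hfit]
      apply ih
      · exact fun y hy => hx y (List.mem_cons_of_mem _ hy)
      · rw [htot, List.sum_cons]; omega
      · rw [coe_ins, ← Multiset.coe_erase]
        rw [Multiset.add_comm, Multiset.singleton_add] at hrest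
        exact hrest

/-! ### The instance given by integer data -/

/-- The instance with sizes `s i / L` and multiplicities `mu i`. -/
def mkInst (M : ℕ) (s mu : Fin M → ℕ) (L : ℕ) (hL : 0 < L) (hpos : ∀ i, 0 < s i) (hle : ∀ i, s i ≤ L)
    (hinj : Function.Injective s) (hmu : ∀ i, 0 < mu i) : Inst where
  m := M
  size := fun i => (s i : ℚ) / L
  mult := mu
  inj := by
    intro a b h
    have hL' : (L : ℚ) ≠ 0 := by positivity
    have : (s a : ℚ) = s b := by
      field_simp at h
      exact h
    exact hinj (by exact_mod_cast this)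
  pos := fun i => by
    have := hpos i
    positivity
  le_one := fun i => by
    have hL' : (0 : ℚ) < L := by exact_mod_cast hL
    rw [div_le_one hL']
    exact_mod_cast hle i
  mult_pos := hmu

lemma mk_config_iff {M : ℕ} {s mu : Fin M → ℕ} {L : ℕ} {hL : 0 < L} {hpos : ∀ i, 0 < s i}
    {hle : ∀ i, s i ≤ L} {hinj : Function.Injective s} {hmu : ∀ i, 0 < mu i} (c : Fin M → ℕ) :
    (mkInst M s mu L hL hpos hle hinj hmu).IsConfig c ↔ ∑ i, c i * s i ≤ L := by
  have hL' : (0 : ℚ) < L := by exact_mod_cast hL
  have h : ∑ i : Fin M, (c i : ℚ) * ((s i : ℚ) / L) = ((∑ i, c i * s i : ℕ) : ℚ) / L := by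
    push_cast
    rw [Finset.sum_div]
    apply Finset.sum_congr rfl
    intro i _
    ring
  show ∑ i : Fin M, (c i : ℚ) * ((s i : ℚ) / L) ≤ 1 ↔ _
  rw [h, div_le_one hL']
  exact_mod_cast Iff.rfl

/-- Weighted list of configurations as a finitely supported function. -/
noncomputable def solZ {M : ℕ} (D : ℕ) (sol : List ((Fin M → ℕ) × ℕ)) : (Fin M → ℕ) →₀ ℝ :=
  (sol.map (fun t => Finsupp.single t.1 ((t.2 : ℝ) / D))).sum

lemma solZ_nonneg {M : ℕ} (D : ℕ) (sol : List ((Fin M → ℕ) × ℕ)) (c : Fin M → ℕ) :
    0 ≤ solZ D sol c := by
  induction sol with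
  | nil => simp [solZ]
  | cons t r ih =>
    have : solZ D (t :: r) c = Finsupp.single t.1 ((t.2 : ℝ) / D) c + solZ D r c := by
      simp [solZ]
    rw [this]
    refine add_nonneg ?_ ih
    rw [Finsupp.single_apply]
    split_ifs
    · positivity
    · exact le_rfl

lemma solZ_support {M : ℕ} (D : ℕ) (sol : List ((Fin M → ℕ) × ℕ)) (c : Fin M → ℕ)
    (hc : c ∈ (solZ D sol).support) : ∃ t ∈ sol, t.1 = c := by
  induction sol with
  | nil => simp [solZ] at hc
  | cons t r ih =>
    have : solZ D (t :: r) = Finsupp.single t.1 ((t.2 : ℝ) / D) + solZ D r := by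
      simp [solZ]
    rw [this] at hc
    have h := Finsupp.support_add hc
    rcases Finset.mem_union.mp h with h | h
    · have := Finsupp.support_single_subset h
      exact ⟨t, List.mem_cons_self .., (Finset.mem_singleton.mp this).symm⟩
    · obtain ⟨t', ht', h'⟩ := ih h
      exact ⟨t', List.mem_cons_of_mem _ ht', h'⟩

lemma solZ_sum {M : ℕ} (D : ℕ) (sol : List ((Fin M → ℕ) × ℕ)) (g : (Fin M → ℕ) → ℝ) :
    (solZ D sol).sum (fun c w => g c * w) = (sol.map (fun t => g t.1 * ((t.2 : ℝ) / D))).sum := by
  induction sol with
  | nil => simp [solZ]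
  | cons t r ih =>
    have : solZ D (t :: r) = Finsupp.single t.1 ((t.2 : ℝ) / D) + solZ D r := by
      simp [solZ]
    rw [this, Finsupp.sum_add_index' (by simp) (by intros; ring), ih]
    simp

/-- Certificate theorem. -/
theorem gap_of_cert (M : ℕ) (s mu : Fin M → ℕ) (L k D V : ℕ) (hL : 0 < L) (hD : 0 < D)
    (hpos : ∀ i, 0 < s i) (hle : ∀ i, s i ≤ L) (hinj : Function.Injective s) (hmu : ∀ i, 0 < mu i)
    (idx : List (Fin M)) (hidx : ∀ i, idx.count i = mu i)
    (mn : ℕ) (hmn : ∀ x ∈ idx.map s, mn ≤ x)
    (hsearch : ∀ k' ≤ k, search L mn (idx.map s) (idx.map s).sum (List.replicate k' 0) = false)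
    (sol : List ((Fin M → ℕ) × ℕ))
    (hconf : ∀ t ∈ sol, ∑ i, t.1 i * s i ≤ L)
    (hcov : ∀ i, D * mu i ≤ (sol.map (fun t => t.1 i * t.2)).sum)
    (htot : (sol.map (fun t => t.2)).sum = V) :
    ((k : ℝ) + 1 - (V : ℝ) / D) ≤
      ((mkInst M s mu L hL hpos hle hinj hmu).OPT : ℝ) - (mkInst M s mu L hL hpos hle hinj hmu).LP := by
  set I := mkInst M s mu L hL hpos hle hinj hmu with hI
  have hD' : (0 : ℝ) < D := by exact_mod_cast hD
  -- OPT
  have hopt : k + 1 ≤ I.OPT := by
    apply I.le_OPT
    intro k' hk' hp
    obtain ⟨B, hB, hsum⟩ := hp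
    change Fin k' → Fin M → ℕ at B
    have hpl : PlM L (idx.map s) (Multiset.map (fun _ : Fin k' => 0) Finset.univ.val) := by
      apply pl_of_matrix s L idx (fun _ => 0) B
      · intro j
        have := (mk_config_iff (B j)).mp (hB j)
        simpa using this
      · intro i
        rw [hidx i]
        exact hsum i
    have hrep : Multiset.map (fun _ : Fin k' => 0) (Finset.univ : Finset (Fin k')).val
        = ((List.replicate k' 0 : List ℕ) : Multiset ℕ) := by
      rw [Multiset.map_const', Multiset.coe_replicate]
      simp
    rw [hrep] at hpl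
    have := search_sound L mn (idx.map s) _ (List.replicate k' 0) hmn rfl hpl
    rw [hsearch k' hk'] at this
    exact absurd this (by simp)
  -- LP
  have hfeas : I.LPFeasible (solZ D sol) := by
    refine ⟨solZ_nonneg D sol, ?_, ?_⟩
    · intro c hc
      obtain ⟨t, ht, rfl⟩ := solZ_support D sol c hc
      exact (mk_config_iff t.1).mpr (hconf t ht)
    · intro (i : Fin M)
      have h1 := solZ_sum D sol (fun c => (c i : ℝ))
      have h2 : (sol.map (fun t => ((t.1 i : ℝ)) * ((t.2 : ℝ) / D))).sum
          = (((sol.map (fun t => t.1 i * t.2)).sum : ℕ) : ℝ) / D := by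
        clear h1 hcov htot hconf
        induction sol with
        | nil => simp
        | cons t r ih =>
          simp only [List.map_cons, List.sum_cons, ih]
          push_cast
          ring
      have h3 : ((D * mu i : ℕ) : ℝ) ≤ (((sol.map (fun t => t.1 i * t.2)).sum : ℕ) : ℝ) := by
        exact_mod_cast hcov i
      show (mu i : ℝ) ≤ (solZ D sol).sum (fun c w => (c i : ℝ) * w)
      rw [h1, h2, le_div_iff₀ hD']
      push_cast at h3 ⊢
      linarith
  have hLP : I.LP ≤ (V : ℝ) / D := by
    have h1 := I.LP_le _ hfeas
    have h2 := solZ_sum D sol (fun _ => (1 : ℝ))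
    simp only [one_mul] at h2
    have h3 : (sol.map (fun t => ((t.2 : ℝ) / D))).sum = (V : ℝ) / D := by
      rw [← htot]
      clear h1 h2 htot hcov hconf hfeas
      induction sol with
      | nil => simp
      | cons t r ih =>
        simp only [List.map_cons, List.sum_cons, ih]
        push_cast
        ring
    calc I.LP ≤ (solZ D sol).sum (fun _ w => w) := h1
      _ = (V : ℝ) / D := h2.trans h3
  have hopt' : ((k : ℝ) + 1) ≤ (I.OPT : ℝ) := by exact_mod_cast hopt
  linarith

end Vale.Agent.P302
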